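import Vale.Agent.P013.Two

namespace Vale.Agent.Results.P013.TwoWindows

open Finset Vale.Agent.P013

theorem result (a δ : ℝ) (ha : 0 < a) (ha2 : a < 1 / 2) (hδ : 0 < δ) :
    ∃ θ M C : ℝ, 0 < θ ∧ ∀ (n k : ℕ) (u v : ℝ), 1 ≤ n → 1 ≤ k → n.primeFactors.card ≤ k →
      ∑ p ∈ n.primeFactors.filter (fun p : ℕ => (k : ℝ) ^ θ < p ∧ (p : ℝ) ≤ (k : ℝ) ^ a),
        1 / (p : ℝ) ≤ u →
      ∑ p ∈ n.primeFactors.filter (fun p : ℕ => (k : ℝ) ^ a < p ∧ (p : ℝ) ≤ M * k),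
        1 / (p : ℝ) ≤ v →
      u ≤ 1 → u ^ 3 / 2 + δ ≤ (1 - u) * (1 - v) →
      (jac n : ℝ) ≤ C * (k : ℝ) ^ 2 := by
  obtain ⟨s, hs⟩ := main2 (δ / 4) (by positivity)
  have ha3 : 0 < 1 - 2 * a := by linarith
  refine ⟨min a ((1 - 2 * a) / (s + 1)), 2 / δ, 8 / δ + 1, by positivity,
    fun n k u v hn hk hc hu hv hu1 huv => ?_⟩
  have hk' : (1 : ℝ) ≤ k := by exact_mod_cast hk
  have hk0 : (0 : ℝ) < k := by linarith
  have hc' : (n.primeFactors.card : ℝ) ≤ k := by exact_mod_cast hc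
  set θ : ℝ := min a ((1 - 2 * a) / (s + 1)) with hθ
  have hθ0 : 0 < θ := by positivity
  have hθ1 : θ * (s + 1) ≤ 1 - 2 * a := (le_div_iff₀ (by positivity)).1 (min_le_right _ _)
  have hk1 : 1 ≤ (k : ℝ) ^ θ := Real.one_le_rpow hk' hθ0.le
  set Y := ⌊(k : ℝ) ^ θ⌋₊ with hY
  set Z := ⌊(k : ℝ) ^ a⌋₊ with hZ
  have hY1 : 1 ≤ Y := Nat.le_floor (by simpa using hk1)
  have hYZ : Y ≤ Z := Nat.floor_le_floor (Real.rpow_le_rpow_of_exponent_le hk' (min_le_left _ _))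
  have hYs : (Y : ℝ) ^ s * (Z : ℝ) ^ 2 ≤ k := by
    calc (Y : ℝ) ^ s * (Z : ℝ) ^ 2 ≤ ((k : ℝ) ^ θ) ^ s * ((k : ℝ) ^ a) ^ 2 :=
          mul_le_mul (pow_le_pow_left₀ (by positivity) (Nat.floor_le (by positivity)) s)
            (pow_le_pow_left₀ (by positivity) (Nat.floor_le (by positivity)) 2)
            (by positivity) (by positivity)
      _ = (k : ℝ) ^ (θ * s + a * (2 : ℕ)) := by
          rw [Real.rpow_add hk0, Real.rpow_mul hk0.le, Real.rpow_mul hk0.le, Real.rpow_natCast,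
            Real.rpow_natCast]
      _ ≤ (k : ℝ) ^ (1 : ℝ) := by
          apply Real.rpow_le_rpow_of_exponent_le hk'
          push_cast
          nlinarith
      _ = k := Real.rpow_one _
  have hu0 : 0 ≤ u := le_trans (sum_nonneg fun p _ => by positivity) hu
  have hsum1 : ∑ p ∈ n.primeFactors.filter (fun p => Y < p ∧ p ≤ Z), 1 / (p : ℝ) ≤ u := by
    refine le_trans (le_of_eq ?_) hu
    refine sum_congr (filter_congr fun p _ => ?_) fun _ _ => rfl
    rw [hY, hZ, Nat.floor_lt (by positivity), Nat.le_floor_iff (by positivity)]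
  have hsum : ∑ p ∈ n.primeFactors.filter (fun p => Z < p), 1 / (p : ℝ) ≤ v + δ / 2 := by
    have h1 : ∑ p ∈ n.primeFactors.filter (fun p => Z < p), 1 / (p : ℝ) ≤
        ∑ p ∈ n.primeFactors.filter (fun p : ℕ => (k : ℝ) ^ a < p ∧ (p : ℝ) ≤ 2 / δ * k),
          1 / (p : ℝ) + ∑ p ∈ n.primeFactors, δ / (2 * k) := by
      rw [sum_filter, sum_filter, ← sum_add_distrib]
      refine sum_le_sum fun p _ => ?_
      have hd : 0 ≤ δ / (2 * k) := by positivity
      by_cases h : Z < p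
      · rw [if_pos h]
        have h' : (k : ℝ) ^ a < p := (Nat.floor_lt (by positivity)).1 h
        by_cases h2 : (p : ℝ) ≤ 2 / δ * k
        · rw [if_pos ⟨h', h2⟩]
          linarith
        · rw [if_neg (fun hh => h2 hh.2), zero_add]
          have h3 : 2 / δ * k < p := not_le.1 h2
          have h4 : (0 : ℝ) < p := lt_trans (by positivity) h3
          rw [div_mul_eq_mul_div, div_lt_iff₀ hδ] at h3
          rw [div_le_div_iff₀ h4 (by positivity)]
          linarith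
      · rw [if_neg h]
        split_ifs
        · positivity
        · linarith
    rw [sum_const, nsmul_eq_mul] at h1
    have h2 : (n.primeFactors.card : ℝ) * (δ / (2 * k)) ≤ δ / 2 := by
      calc (n.primeFactors.card : ℝ) * (δ / (2 * k)) ≤ k * (δ / (2 * k)) :=
            mul_le_mul_of_nonneg_right hc' (by positivity)
        _ = δ / 2 := by field_simp
    linarith
  have hu3 : 0 ≤ u ^ 3 := by positivity
  have hv1 : δ ≤ 1 - v := by
    have h1 : 0 ≤ 1 - v := by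
      by_contra h
      nlinarith [mul_nonneg (sub_nonneg.2 hu1) (neg_nonneg.2 (not_le.1 h).le)]
    nlinarith [mul_nonneg hu0 h1]
  set B : ℝ := (Y : ℝ) ^ s * (Z : ℝ) ^ 2 * (1 + n.primeFactors.card) / (δ / 4) with hB
  have hB0 : 0 ≤ B := by positivity
  have hj := hs n Y Z (⌊B⌋₊ + 1) hn hY1 hYZ u (v + δ / 2) hsum1 hsum (by linarith)
    (by nlinarith [mul_nonneg hu0 hδ.le]) (by
    have h1 := Nat.lt_floor_add_one B
    have h2 := (div_lt_iff₀ (by positivity : 0 < δ / 4)).1 (hB ▸ h1 :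
      (Y : ℝ) ^ s * (Z : ℝ) ^ 2 * (1 + n.primeFactors.card) / (δ / 4) < (⌊B⌋₊ : ℝ) + 1)
    push_cast
    linarith)
  have hj' : (jac n : ℝ) ≤ B + 1 := by
    have h1 : (jac n : ℝ) ≤ ((⌊B⌋₊ + 1 : ℕ) : ℝ) := by exact_mod_cast hj
    push_cast at h1
    linarith [Nat.floor_le hB0]
  have h1 : 1 ≤ (k : ℝ) ^ 2 := one_le_pow₀ hk'
  have h2 : B ≤ 8 / δ * (k : ℝ) ^ 2 := by
    rw [hB, div_le_iff₀ (by positivity)]
    calc (Y : ℝ) ^ s * (Z : ℝ) ^ 2 * (1 + n.primeFactors.card) ≤ k * (2 * k) :=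
          mul_le_mul hYs (by linarith) (by positivity) (by positivity)
      _ = _ := by field_simp; ring
  linarith

end Vale.Agent.Results.P013.TwoWindows
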