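import Vale.Agent.P013.Blk
import Vale.Agent.Results.P013.TwoWindows

namespace Vale.Agent.Results.P013.MidRange

open Finset Vale.Agent.P013

theorem result :
    ∃ θ C : ℝ, 0 < θ ∧ ∀ n k : ℕ, 1 ≤ n → 1 ≤ k → n.primeFactors.card ≤ k →
      ∑ p ∈ n.primeFactors.filter
        (fun p : ℕ => (k : ℝ) ^ θ < p ∧ (p : ℝ) ≤ (k : ℝ) ^ (49 / 100 : ℝ)), 1 / (p : ℝ) ≤ 1 / 2 →
      (jac n : ℝ) ≤ C * (k : ℝ) ^ 2 := by
  obtain ⟨θ, M, C, hθ, h⟩ :=
    TwoWindows.result 0.49 0.01 (by norm_num) (by norm_num) (by norm_num)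
  obtain ⟨K, hK⟩ := top M
  obtain ⟨s, hs⟩ := main (1 / 4) (by norm_num)
  obtain ⟨N, hN⟩ := exists_nat_ge K
  refine ⟨θ, max C ((4 * ((2 * N) ^ s * (1 + N)) + 1 : ℕ) : ℝ), hθ, fun n k hn hk hc hσ => ?_⟩
  have hk' : (1 : ℝ) ≤ k := by exact_mod_cast hk
  have hc' : (n.primeFactors.card : ℝ) ≤ k := by exact_mod_cast hc
  rcases le_total N k with hNk | hNk
  · have h1 := h n k (1 / 2) 0.85 hn hk hc
      (by rw [show (0.49 : ℝ) = 49 / 100 by norm_num]; exact hσ)
      (hK n k (hN.trans (by exact_mod_cast hNk))) (by norm_num) (by norm_num)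
    exact h1.trans (mul_le_mul_of_nonneg_right (le_max_left _ _) (by positivity))
  · have hNk' : (k : ℝ) ≤ N := by exact_mod_cast hNk
    have h1 := hs n (2 * k) (4 * ((2 * N) ^ s * (1 + N)) + 1) hn (by omega)
      (by
        have h2 : ∑ p ∈ n.primeFactors.filter (fun p => 2 * k < p), 1 / (p : ℝ) ≤
            ∑ p ∈ n.primeFactors, 1 / (2 * (k : ℝ)) := by
          rw [sum_filter]
          refine sum_le_sum fun p _ => ?_
          split_ifs with hp
          · exact one_div_le_one_div_of_le (by positivity) (by exact_mod_cast hp.le)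
          · positivity
        rw [sum_const, nsmul_eq_mul, mul_one_div] at h2
        refine h2.trans ?_
        rw [div_le_iff₀ (by positivity)]
        linarith)
      (by
        push_cast
        have : (2 * (k : ℝ)) ^ s * (1 + n.primeFactors.card) ≤ (2 * (N : ℝ)) ^ s * (1 + N) :=
          mul_le_mul (pow_le_pow_left₀ (by positivity) (by linarith) s) (by linarith)
            (by positivity) (by positivity)
        linarith)
    have h2 : (jac n : ℝ) ≤ ((4 * ((2 * N) ^ s * (1 + N)) + 1 : ℕ) : ℝ) := by exact_mod_cast h1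
    refine (h2.trans (le_max_right C _)).trans ?_
    exact le_mul_of_one_le_right (le_max_of_le_right (by positivity)) (one_le_pow₀ hk')

end Vale.Agent.Results.P013.MidRange
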