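import Vale.Agent.P013.Core

namespace Vale.Agent.Results.P013.Window

open Finset Vale.Agent.P013

theorem result (ε δ : ℝ) (hε : 0 < ε) (hδ : 0 < δ) :
    ∃ θ M C : ℝ, 0 < θ ∧ ∀ n k : ℕ, 1 ≤ n → 1 ≤ k → n.primeFactors.card ≤ k →
      ∑ p ∈ n.primeFactors.filter (fun p : ℕ => (k : ℝ) ^ θ < p ∧ (p : ℝ) ≤ M * k),
        1 / (p : ℝ) ≤ 1 - δ →
      (jac n : ℝ) ≤ C * (k : ℝ) ^ (1 + ε) := by
  obtain ⟨s, hs⟩ := main (δ / 4) (by positivity)
  refine ⟨ε / (s + 1), 2 / δ, 8 / δ + 1, by positivity, fun n k hn hk hc hσ => ?_⟩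
  have hk' : (1 : ℝ) ≤ k := by exact_mod_cast hk
  have hk0 : (0 : ℝ) < k := by linarith
  have hc' : (n.primeFactors.card : ℝ) ≤ k := by exact_mod_cast hc
  set θ : ℝ := ε / (s + 1) with hθ
  have hθ0 : 0 < θ := by positivity
  have hk1 : 1 ≤ (k : ℝ) ^ θ := Real.one_le_rpow hk' hθ0.le
  set Y := ⌊(k : ℝ) ^ θ⌋₊ with hY
  have hY1 : 1 ≤ Y := Nat.le_floor (by simpa using hk1)
  have hYs : (Y : ℝ) ^ s ≤ (k : ℝ) ^ ε := by
    calc (Y : ℝ) ^ s ≤ ((k : ℝ) ^ θ) ^ s :=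
          pow_le_pow_left₀ (by positivity) (Nat.floor_le (by positivity)) s
      _ = (k : ℝ) ^ (θ * s) := by rw [Real.rpow_mul hk0.le, Real.rpow_natCast]
      _ ≤ (k : ℝ) ^ ε := by
          apply Real.rpow_le_rpow_of_exponent_le hk'
          rw [hθ, div_mul_eq_mul_div, div_le_iff₀ (by positivity)]
          nlinarith
  have hsum : ∑ p ∈ n.primeFactors.filter (fun p => Y < p), 1 / (p : ℝ) ≤ 1 - 2 * (δ / 4) := by
    have h1 : ∑ p ∈ n.primeFactors.filter (fun p => Y < p), 1 / (p : ℝ) ≤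
        ∑ p ∈ n.primeFactors.filter (fun p : ℕ => (k : ℝ) ^ θ < p ∧ (p : ℝ) ≤ 2 / δ * k),
          1 / (p : ℝ) + ∑ p ∈ n.primeFactors, δ / (2 * k) := by
      rw [sum_filter, sum_filter, ← sum_add_distrib]
      refine sum_le_sum fun p _ => ?_
      have hd : 0 ≤ δ / (2 * k) := by positivity
      by_cases h : Y < p
      · rw [if_pos h]
        have h' : (k : ℝ) ^ θ < p := (Nat.floor_lt (by positivity)).1 h
        by_cases h2 : (p : ℝ) ≤ 2 / δ * k
        · rw [if_pos ⟨h', h2⟩]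
          linarith
        · rw [if_neg (fun hh => h2 hh.2), zero_add]
          have h3 : 2 / δ * k < p := not_le.1 h2
          have h4 : (0 : ℝ) < p := lt_trans (by positivity) h3
          rw [div_mul_eq_mul_div, div_lt_iff₀ hδ] at h3
          rw [div_le_div_iff₀ h4 (by positivity)]
          linarith
      · rw [if_neg h]
        split_ifs
        · positivity
        · linarith
    rw [sum_const, nsmul_eq_mul] at h1
    have h2 : (n.primeFactors.card : ℝ) * (δ / (2 * k)) ≤ δ / 2 := by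
      calc (n.primeFactors.card : ℝ) * (δ / (2 * k)) ≤ k * (δ / (2 * k)) :=
            mul_le_mul_of_nonneg_right hc' (by positivity)
        _ = δ / 2 := by field_simp
    linarith
  set B : ℝ := (Y : ℝ) ^ s * (1 + n.primeFactors.card) / (δ / 4) with hB
  have hB0 : 0 ≤ B := by positivity
  have hj := hs n Y (⌊B⌋₊ + 1) hn hY1 hsum (by
    have h1 := Nat.lt_floor_add_one B
    have h2 := (div_lt_iff₀ (by positivity : 0 < δ / 4)).1 (hB ▸ h1 :
      (Y : ℝ) ^ s * (1 + n.primeFactors.card) / (δ / 4) < (⌊B⌋₊ : ℝ) + 1)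
    push_cast
    linarith)
  have hj' : (jac n : ℝ) ≤ B + 1 := by
    have h1 : (jac n : ℝ) ≤ ((⌊B⌋₊ + 1 : ℕ) : ℝ) := by exact_mod_cast hj
    push_cast at h1
    linarith [Nat.floor_le hB0]
  have he : (k : ℝ) ^ (1 + ε) = k * (k : ℝ) ^ ε := by rw [Real.rpow_add hk0, Real.rpow_one]
  have h1 : 1 ≤ (k : ℝ) ^ (1 + ε) := Real.one_le_rpow hk' (by linarith)
  have h2 : B ≤ 8 / δ * (k : ℝ) ^ (1 + ε) := by
    rw [hB, div_le_iff₀ (by positivity), he]
    calc (Y : ℝ) ^ s * (1 + n.primeFactors.card) ≤ (k : ℝ) ^ ε * (2 * k) :=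
          mul_le_mul hYs (by linarith) (by positivity) (by positivity)
      _ = _ := by field_simp; ring
  linarith

end Vale.Agent.Results.P013.Window
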